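import Mathlib

open MeasureTheory Set
open scoped ENNReal

namespace Vale.Agent.P100

/-- The minimum of `f` on `[c₀ - l, c₀ + l]`. -/
noncomputable def hh (f : ℝ → ℝ) (c₀ l : ℝ) : ℝ := sInf (f '' Icc (c₀ - l) (c₀ + l))

/-- The largest half-width `≤ δ` of a symmetric interval about `c₀` on which `f > c`. -/
noncomputable def lam (f : ℝ → ℝ) (c₀ δ c : ℝ) : ℝ := sSup {l | l ∈ Icc 0 δ ∧ c < hh f c₀ l}

/-- The cut point of the level set `{f > c}`. -/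
noncomputable def chi (f : ℝ → ℝ) (c₀ δ c : ℝ) : ℝ :=
  if c < hh f c₀ δ then c₀
  else if f (c₀ + lam f c₀ δ c) ≤ c then c₀ + lam f c₀ δ c else c₀ - lam f c₀ δ c

/-- The measure of the set of levels that move at the point `s`. -/
noncomputable def pm (f : ℝ → ℝ) (c₀ δ T s : ℝ) : ℝ≥0∞ :=
  volume {c : ℝ | 0 < c ∧ c < f s ∧ -T < s ∧ s < chi f c₀ δ c}

/-- An admissible cut of a set near `c₀`; `L` says that the set is long. -/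
structure Cut (c₀ δ : ℝ) (E : Set ℝ) (χ : ℝ) (L : Prop) : Prop where
  meas : MeasurableSet E
  near : |χ - c₀| ≤ δ
  sym : Ioo (c₀ - |χ - c₀|) (c₀ + |χ - c₀|) ⊆ E
  long : L → χ = c₀ ∧ Icc (c₀ - δ) (c₀ + δ) ⊆ E
  short : ¬ L → χ ∉ E

/-- A symmetric decreasing integrable kernel on the line. -/
structure K1 (k : ℝ → ℝ) : Prop where
  meas : Measurable k
  nonneg : ∀ t, 0 ≤ k t
  even : ∀ t, k (-t) = k t
  anti : AntitoneOn k (Ici 0)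
  int : Integrable k

/-- Interaction of two sets after shifting the first one by `x`. -/
noncomputable def II (k : ℝ → ℝ) (S E : Set ℝ) (x : ℝ) : ℝ≥0∞ :=
  ∫⁻ s in S, ∫⁻ t in E, ENNReal.ofReal (k (s + x - t))

/-- The one-dimensional potential of `g` at `y`. -/
noncomputable def pt (k g : ℝ → ℝ) (y : ℝ) : ℝ≥0∞ :=
  ∫⁻ t, ENNReal.ofReal (k (y - t)) * ENNReal.ofReal (g t)

variable {Θ : Type} [MeasurableSpace Θ]

/-- The potential of `g` on the cylinder. -/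
noncomputable def pot (σ : Measure Θ) (k : Θ → Θ → ℝ → ℝ) (g : Θ → ℝ → ℝ) (θ : Θ) (s : ℝ) :
    ℝ≥0∞ := ∫⁻ θ', pt (k θ θ') (g θ') s ∂σ

/-- The source term `e^{e s} Z^p`. -/
noncomputable def src (e p : ℝ) (Z : Θ → ℝ → ℝ) (θ : Θ) (s : ℝ) : ℝ :=
  Real.exp (e * s) * Z θ s ^ p

/-- The mass of `f Z` over a set of heights. -/
noncomputable def lm (σ : Measure Θ) (f Z : Θ → ℝ → ℝ) (S : Set ℝ) : ℝ≥0∞ :=
  ∫⁻ θ, (∫⁻ s in S, ENNReal.ofReal (f θ s * Z θ s)) ∂σ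

/-- The mass below height `S`. -/
noncomputable def MM (σ : Measure Θ) (f Z : Θ → ℝ → ℝ) (S : ℝ) : ℝ := (lm σ f Z (Iio S)).toReal

/-- The exponentially weighted mass of a source. -/
noncomputable def Phi (σ : Measure Θ) (m : ℝ) (f : Θ → ℝ → ℝ) (s : ℝ) : ℝ≥0∞ :=
  ∫⁻ θ, (∫⁻ t, ENNReal.ofReal (Real.exp (-(m * |t - s|))) * ENNReal.ofReal (f θ t)) ∂σ

/-- The total amount of long levels. -/
noncomputable def HH (σ : Measure Θ) (f : Θ → ℝ → ℝ) (c₀ l : ℝ) : ℝ≥0∞ :=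
  ∫⁻ θ, ENNReal.ofReal (hh (f θ) c₀ l) ∂σ

/-- The cost density of the long levels. -/
noncomputable def mf (σ : Measure Θ) (e p : ℝ) (Z : Θ → ℝ → ℝ) (c₀ l : ℝ) : ℝ :=
  ∫ θ, hh (src e p Z θ) c₀ l ^ (1 + p⁻¹) * Real.exp (-(e / p * c₀)) ∂σ

/-- Interaction of the moving part of `f` with the potential `Z` shifted by `x`. -/
noncomputable def AA (σ : Measure Θ) (f Z : Θ → ℝ → ℝ) (c₀ δ T x : ℝ) : ℝ≥0∞ :=
  ∫⁻ θ, (∫⁻ s, pm (f θ) c₀ δ T s * ENNReal.ofReal (Z θ (s + x))) ∂σ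

/-- Interaction of the long levels of `f` with the potential `Z` near `c₀`. -/
noncomputable def CC (σ : Measure Θ) (f Z : Θ → ℝ → ℝ) (c₀ δ τ : ℝ) : ℝ≥0∞ :=
  ∫⁻ θ, (ENNReal.ofReal (hh (f θ) c₀ δ) * ∫⁻ x in Ioo (-τ) τ, ENNReal.ofReal (Z θ (x + c₀))) ∂σ

/-- Interaction of the long levels of `f` and `g` as full lines. -/
noncomputable def EE (σ : Measure Θ) (k : Θ → Θ → ℝ → ℝ) (f g : Θ → ℝ → ℝ) (c₀ l : ℝ) : ℝ≥0∞ :=
  ∫⁻ θ, (∫⁻ θ', ENNReal.ofReal (hh (f θ) c₀ l) * ENNReal.ofReal (hh (g θ') c₀ l)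
    * (∫⁻ t, ENNReal.ofReal (k θ θ' t)) ∂σ) ∂σ

/-- The properties of the kernel; `CK` is the constant of the off-diagonal bound. -/
structure Ker (σ : Measure Θ) (m : ℝ) (N : ℕ) (CK : ℝ) (k : Θ → Θ → ℝ → ℝ) : Prop where
  m_pos : 0 < m
  CK_pos : 0 < CK
  meas : Measurable (fun z : Θ × Θ × ℝ => k z.1 z.2.1 z.2.2)
  symm : ∀ θ θ', k θ θ' = k θ' θ
  nonneg : ∀ θ θ' t, 0 ≤ k θ θ' t
  even : ∀ θ θ' t, k θ θ' (-t) = k θ θ' t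
  good : ∀ θ, ∀ᵐ θ' ∂σ, K1 (k θ θ')
  lower : ∃ c : ℝ, 0 < c ∧ ∀ θ θ' t, t ≠ 0 → c * Real.exp (-(m * |t|)) ≤ k θ θ' t
  upper : ∀ ρ : ℝ, 0 < ρ → ρ ≤ 1 → ∀ θ θ' t, ρ ≤ |t| →
    k θ θ' t ≤ CK * ρ⁻¹ ^ N * Real.exp (-(m * |t|))

/-- One half of the system on the cylinder: `W` is the potential of `e^{e s} Z^p`. -/
structure Half [TopologicalSpace Θ] (σ : Measure Θ) (k : Θ → Θ → ℝ → ℝ) (m p e : ℝ)
    (W Z : Θ → ℝ → ℝ) : Prop where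
  p_pos : 0 < p
  cont : Continuous (fun z : Θ × ℝ => Z z.1 z.2)
  pos : ∀ θ s, 0 < Z θ s
  der : ∃ Z' : Θ → ℝ → ℝ, Continuous (fun z : Θ × ℝ => Z' z.1 z.2) ∧
    ∀ θ s, HasDerivAt (Z θ) (Z' θ s) s
  bd : ∃ C : ℝ, 0 < C ∧ ∀ θ s, s ≤ 0 → Z θ s ≤ C * Real.exp (m * s)
  ex : m < e + p * m
  rep : ∀ θ s, ENNReal.ofReal (W θ s) = pot σ k (src e p Z) θ s

end Vale.Agent.P100
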